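import Vale.Agent.P272.K.AMP.NF.H327.Loc
import Vale.Agent.P272.K.AMP.NF.Defs
import Vale.Agent.P272.K.T4.L5Final

/-! # AMP-NF, block N2 (weighted L5), global half. -/

open scoped Manifold ContDiff ComplexOrder Topology
open Set Metric MeasureTheory Filter

set_option linter.all false

noncomputable section

namespace Vale.Agent.P272.K.AMP.NF.H327

open Vale.Agent.P272.K.T4
open INT (IsDensity intX part Part)

variable {n : ℕ}

section
variable {X : Type} [TopologicalSpace X] [T2Space X] [CompactSpace X] [ChartedSpace (Cm n) X]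
  [IsManifold 𝓘(ℂ, Cm n) ω X]

lemma cont_of_smooth {ρ : X → ℝ} (hρ : SmoothFn (n := n) ρ) : Continuous ρ := by
  refine continuous_iff_continuousAt.2 fun x => ?_
  have hx := AMP.at_chartAt (n := n) x
  have h1 : ContinuousAt (fun y => ρ ((chartAt (Cm n) x).symm y)) (chartAt (Cm n) x x) :=
    (hρ _ _ hx).continuousAt
  have h2 : ContinuousAt (chartAt (Cm n) x) x :=
    (chartAt (Cm n) x).continuousAt (mem_chart_source _ x)
  have h3 : ContinuousAt (fun y => ρ ((chartAt (Cm n) x).symm ((chartAt (Cm n) x) y))) x :=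
    ContinuousAt.comp (f := chartAt (Cm n) x) (g := fun y => ρ ((chartAt (Cm n) x).symm y)) h1 h2
  refine h3.congr ?_
  filter_upwards [(chartAt (Cm n) x).open_source.mem_nhds (mem_chart_source _ x)] with y hy
  rw [(chartAt (Cm n) x).left_inv hy]

/-- `ρ D` is a density -/
lemma dens_smul {D : Chart n X → Cm n → ℝ} (hD : IsDensity D) {ρ : X → ℝ}
    (hρ : SmoothFn (n := n) ρ) : IsDensity fun e z => ρ (e.symm z) * D e z :=
  hD.smul (cont_of_smooth hρ)

lemma gradE_eq_Gl (g : Chart n X → Cm n → Matrix (Fin n) (Fin n) ℂ) (ρ : X → ℝ) (e : Chart n X)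
    (z : Cm n) : AMP.gradE g ρ ρ e z = Gl (g e) (fun y => ρ (e.symm y)) z := rfl

/-- the density of `IG` -/
lemma dens_IG {g h : Chart n X → Cm n → Matrix (Fin n) (Fin n) ℂ} (hg : IsHermitian g)
    (hh : IsHermitian h) {ρ : X → ℝ} (hρ : SmoothFn (n := n) ρ) (hρp : ∀ x, 0 < ρ x) :
    IsDensity fun e z => AMP.gradE g ρ ρ e z / ρ (e.symm z) * (Tr g h e z * dt g e z) where
  cont e x hx := by
    have hgi : ∀ i j, ContDiffAt ℝ ∞ (fun y => (g e y)⁻¹ i j) (e x) :=
      fun i j => contDiffAt_inv (hg.smooth e x hx) (hg.det_ne_zero hx) i j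
    have h1 := contDiffAt_re (contDiffAt_trace_mul hgi (hh.smooth e x hx))
    have h4 := contDiffAt_re (contDiffAt_det (hg.smooth e x hx))
    have h5 : ContDiffAt ℝ ∞ (fun y => AMP.gradE g ρ ρ e y) (e x) :=
      contDiffAt_re (contDiffAt_trace_mul hgi (ddl_smooth (U := Set.univ) (hρ e x hx)))
    have h6 : ContinuousAt (fun y => ρ (e.symm y)) (e x) := (hρ e x hx).continuousAt
    exact (h5.continuousAt.div h6 (by exact (hρp _).ne')).mul
      (h1.continuousAt.mul h4.continuousAt)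
  change e e' x hx hx' := by
    have h1 : Tr g h e (e x) = Tr g h e' (e' x) := by
      unfold Tr
      rw [trace_inv hg.isForm hh.isForm hx hx']
    have h2 : AMP.gradE g ρ ρ e (e x) = AMP.gradE g ρ ρ e' (e' x) := by
      unfold AMP.gradE
      rw [trace_inv hg.isForm (AMP.isForm_dd hρ hρ) hx hx']
    simp only [hx.left_inv, hx'.left_inv]
    rw [h1, h2, dt_change hg hx hx']; ring

lemma gradE_nonneg {g : Chart n X → Cm n → Matrix (Fin n) (Fin n) ℂ} (hg : IsHermitian g)
    {ρ : X → ℝ} (hρ : SmoothFn (n := n) ρ) {e : Chart n X} {x : X} (hx : At e x) :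
    0 ≤ AMP.gradE g ρ ρ e (e x) :=
  Gl_nonneg (g := g e) (hg.posDef e x hx) ((hρ e x hx).differentiableAt (by simp))

/-- the key step with weight -/
theorem quot_leW [NeZero n] {χ : ℝ → ℝ} (hχ : Wt χ)
    {h : Chart n X → Cm n → Matrix (Fin n) (Fin n) ℂ} (hh : IsHermitian h) (hneg : NonposHSC h)
    {ε : ℝ} (hε : 0 < ε) : ∃ C : ℝ, 0 ≤ C ∧
      ∀ (g : Chart n X → Cm n → Matrix (Fin n) (Fin n) ℂ) (_ : IsKahler g) (_ : RicGe g)
        (ρ : X → ℝ) (_ : SmoothFn (n := n) ρ) (_ : ∀ x, 0 < ρ x),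
        intX (fun e z => ρ (e.symm z) *
          (Eg χ g (fun e z w => (quad (h e z) (xiV (h e) z w)).re) e z /
            Tr g h e z * dt g e z)) ≤
          ε * IT 2 g h ρ + C * (IP χ g h ρ + IM g h ρ + IG g h ρ) := by
  have hL := localL5W n
  set P := part n X with hP
  set ε' := ε / ((P.N : ℝ) + 1) with hε'
  have hN : (0 : ℝ) < (P.N : ℝ) + 1 := by positivity
  have hε'0 : 0 < ε' := div_pos hε hN
  have h1 : ∀ i, ∃ C : ℝ, 0 ≤ C ∧
    ∀ (g : Cm n → Matrix (Fin n) (Fin n) ℂ) (_ : SmPos (P.e i).target g)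
      (_ : ∀ z ∈ (P.e i).target, ∀ a b k, dz k (fun y => g y a b) z = dz a (fun y => g y k b) z)
      (_ : ∀ z ∈ (P.e i).target,
        (-cHess (fun y => Real.log (g y).det.re) z + g z).PosSemidef)
      (ρ : Cm n → ℝ) (_ : ∀ z ∈ (P.e i).target, ContDiffAt ℝ ∞ ρ z)
      (_ : ∀ z ∈ (P.e i).target, 0 < ρ z),
      ∫ z in (P.e i).target, cutZ (P.e i) (P.ρ i) z * (ρ z *
          (El χ g (Xl (h (P.e i))) z / Tl g (h (P.e i)) z * (g z).det.re)) ≤
        ∫ z in tsupport (cutZ (P.e i) (P.ρ i)), ρ z * ((ε' * Tl g (h (P.e i)) z ^ 2 +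
          C * (El χ g (fun z w => Pl g (h (P.e i)) z w + Rl (h (P.e i)) z w) z +
            Ml g (h (P.e i)) z + Gl g ρ z * Tl g (h (P.e i)) z / ρ z ^ 2)) * (g z).det.re) :=
    fun i =>
    hL χ hχ (P.e i).target (P.e i).open_target (h (P.e i)) (smPos_of hh (P.mem i))
      (fun z hz ξ => by
        obtain ⟨x1, x2⟩ := at_target (P.mem i) hz
        have := hneg (P.e i) _ x1 ξ
        rw [x2] at this
        exact this)
      (cutZ (P.e i) (P.ρ i)) (contDiff_cutZ (P.mem i) (P.smooth i) (P.supp i))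
      (hasCompactSupport_cutZ (P.supp i))
      ((tsupport_cutZ (P.supp i)).trans (image_tsupport_subset (P.supp i)))
      (cutZ_nonneg (P.nonneg i)) ε' hε'0
  choose C hC0 hC using h1
  refine ⟨∑ i, C i, Finset.sum_nonneg fun i _ => hC0 i, fun g hg hric ρ hρ hρp => ?_⟩
  have hgh := hg.toIsHermitian
  have dT : IsDensity fun e z => ρ (e.symm z) * (Tr g h e z ^ 2 * dt g e z) :=
    dens_smul (isDensity_trace hgh hh (F := fun t => t ^ 2) (continuous_pow 2)) hρ
  have hPR : CTFun fun e z w => Pq g h e z w + Rq h e z w :=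
    ((Pq_smTFun hgh hh).add (Rq_smTFun hh)).ct
  have dP : IsDensity fun e z => ρ (e.symm z) *
      (Eg χ g (fun e z w => Pq g h e z w + Rq h e z w) e z * dt g e z) :=
    dens_smul (Eg_isDensity hχ hgh hPR) hρ
  have dM : IsDensity fun e z => ρ (e.symm z) * (Ml (g e) (h e) z * dt g e z) :=
    dens_smul (isDensity_Ml hgh hh) hρ
  have dG : IsDensity fun e z => AMP.gradE g ρ ρ e z / ρ (e.symm z) *
      (Tr g h e z * dt g e z) := dens_IG hgh hh hρ hρp
  have key : ∀ i, ∫ z in (P.e i).target, P.ρ i ((P.e i).symm z) * (ρ ((P.e i).symm z) *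
      (Eg χ g (fun e z w => (quad (h e z) (xiV (h e) z w)).re) (P.e i) z /
            Tr g h (P.e i) z * dt g (P.e i) z)) ≤
      ε' * IT 2 g h ρ + C i * (IP χ g h ρ + IM g h ρ + IG g h ρ) := by
    intro i
    have h2 := hC i (g (P.e i)) (smPos_of hgh (P.mem i))
      (fun z hz a b k => by
        obtain ⟨x1, x2⟩ := at_target (P.mem i) hz
        have := hg.closed (P.e i) _ x1 a b k
        rw [x2] at this
        exact this)
      (fun z hz => by
        obtain ⟨x1, x2⟩ := at_target (P.mem i) hz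
        have := hric (P.e i) _ x1
        rw [x2] at this
        exact this)
      (fun y => ρ ((P.e i).symm y))
      (fun z hz => by
        obtain ⟨x1, x2⟩ := at_target (P.mem i) hz
        have := hρ (P.e i) _ x1
        rw [x2] at this
        exact this)
      (fun z hz => hρp _)
    have h3 : ∫ z in (P.e i).target, P.ρ i ((P.e i).symm z) * (ρ ((P.e i).symm z) *
        (Eg χ g (fun e z w => (quad (h e z) (xiV (h e) z w)).re) (P.e i) z /
            Tr g h (P.e i) z * dt g (P.e i) z)) =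
        ∫ z in (P.e i).target, cutZ (P.e i) (P.ρ i) z * (ρ ((P.e i).symm z) *
          (El χ (g (P.e i)) (Xl (h (P.e i))) z / Tl (g (P.e i)) (h (P.e i)) z *
            (g (P.e i) z).det.re)) := by
      refine setIntegral_congr_fun (P.e i).open_target.measurableSet fun z hz => ?_
      simp only [cutZ_of_mem hz]
      rfl
    rw [h3]
    refine h2.trans ?_
    -- the density on the right
    have dR : IsDensity fun e z => ε' * (ρ (e.symm z) * (Tr g h e z ^ 2 * dt g e z)) +
        C i * (ρ (e.symm z) *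
          (Eg χ g (fun e z w => Pq g h e z w + Rq h e z w) e z * dt g e z) +
          ρ (e.symm z) * (Ml (g e) (h e) z * dt g e z) +
          AMP.gradE g ρ ρ e z / ρ (e.symm z) * (Tr g h e z * dt g e z)) :=
      (dT.const_mul ε').add (((dP.add dM).add dG).const_mul (C i))
    have h0 : ∀ e x, At e x → 0 ≤ ε' * (ρ (e.symm (e x)) *
          (Tr g h e (e x) ^ 2 * dt g e (e x))) +
        C i * (ρ (e.symm (e x)) *
          (Eg χ g (fun e z w => Pq g h e z w + Rq h e z w) e (e x) * dt g e (e x)) +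
          ρ (e.symm (e x)) * (Ml (g e) (h e) (e x) * dt g e (e x)) +
          AMP.gradE g ρ ρ e (e x) / ρ (e.symm (e x)) * (Tr g h e (e x) * dt g e (e x))) := by
      intro e x hx
      have a1 : 0 < dt g e (e x) := hgh.det_re_pos hx
      have a2 : 0 ≤ Eg χ g (fun e z w => Pq g h e z w + Rq h e z w) e (e x) :=
        Eg_nonneg hχ hgh hx fun w => add_nonneg (Pq_nonneg g hh hx w) (Rq_nonneg hneg hx w)
      have a3 := Ml_nonneg hgh hh hric hx
      have a4 := gradE_nonneg hgh hρ hx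
      have a5 := tr_pos hgh hh hx
      have a6 := hρp (e.symm (e x))
      have := hC0 i
      positivity
    have h4 := setIntegral_le_intX dR h0 (P.mem i)
      (hasCompactSupport_cutZ (P.supp i) : IsCompact (tsupport (cutZ (P.e i) (P.ρ i))))
      ((tsupport_cutZ (P.supp i)).trans (image_tsupport_subset (P.supp i)))
    have h5 : intX (fun e z => ε' * (ρ (e.symm z) * (Tr g h e z ^ 2 * dt g e z)) +
        C i * (ρ (e.symm z) *
          (Eg χ g (fun e z w => Pq g h e z w + Rq h e z w) e z * dt g e z) +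
          ρ (e.symm z) * (Ml (g e) (h e) z * dt g e z) +
          AMP.gradE g ρ ρ e z / ρ (e.symm z) * (Tr g h e z * dt g e z))) =
        ε' * IT 2 g h ρ + C i * (IP χ g h ρ + IM g h ρ + IG g h ρ) := by
      rw [INT.intX_add (dT.const_mul ε') (((dP.add dM).add dG).const_mul (C i)),
        INT.intX_const_mul, INT.intX_const_mul, INT.intX_add (dP.add dM) dG,
        INT.intX_add dP dM]
      rfl
    rw [← h5]
    refine le_trans (le_of_eq ?_) h4
    refine setIntegral_congr_fun (isClosed_tsupport _).measurableSet fun z hz => ?_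
    have b1 : El χ (g (P.e i)) (fun z w => Pl (g (P.e i)) (h (P.e i)) z w + Rl (h (P.e i)) z w) z
        = Eg χ g (fun e z w => Pq g h e z w + Rq h e z w) (P.e i) z := rfl
    have b2 : Tl (g (P.e i)) (h (P.e i)) z = Tr g h (P.e i) z := rfl
    have b3 : (g (P.e i) z).det.re = dt g (P.e i) z := rfl
    have b4 : Gl (g (P.e i)) (fun y => ρ ((P.e i).symm y)) z =
      AMP.gradE g ρ ρ (P.e i) z := rfl
    simp only [b1, b2, b3, b4]
    have hr := (hρp ((P.e i).symm z)).ne'
    field_simp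
  have hsum : intX (fun e z => ρ (e.symm z) *
      (Eg χ g (fun e z w => (quad (h e z) (xiV (h e) z w)).re) e z /
            Tr g h e z * dt g e z)) ≤ ∑ i : Fin P.N,
      (ε' * IT 2 g h ρ + C i * (IP χ g h ρ + IM g h ρ + IG g h ρ)) := by
    unfold intX
    exact Finset.sum_le_sum fun i _ => key i
  refine hsum.trans ?_
  rw [Finset.sum_add_distrib, Finset.sum_const, Finset.card_univ, Fintype.card_fin,
    ← Finset.sum_mul, nsmul_eq_mul]
  have hI20 : 0 ≤ IT 2 g h ρ := INT.intX_nonneg fun e x hx =>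
    mul_nonneg (hρp _).le (mul_nonneg (sq_nonneg _) (hgh.det_re_pos hx).le)
  have h6 : (P.N : ℝ) * ε' ≤ ε := by
    rw [hε', mul_div_assoc', div_le_iff₀ hN]
    nlinarith
  have h7 := mul_le_mul_of_nonneg_right h6 hI20
  linarith

end

/-- **Block N2.** -/
theorem n2 (n : ℕ) (X : Type) [TopologicalSpace X] [T2Space X] [CompactSpace X]
    [ChartedSpace (Cm n) X] [IsManifold 𝓘(ℂ, Cm n) ω X] : N2 n X := by
  have hM : MomStatement n X := mom n X
  rcases Nat.eq_zero_or_pos n with hn | hn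
  · -- dimension zero
    subst hn
    intro χ hχ h hh hneg ε hε
    refine ⟨0, le_rfl, fun g hg hric ρ hρ hρp => ?_⟩
    have hgh := hg.toIsHermitian
    have h1 : intX (fun e z => ρ (e.symm z) * (Eg χ g (Dq h) e z * dt g e z)) = 0 := by
      rw [← INT.intX_zero (n := 0) (X := X)]
      refine INT.intX_congr fun e x hx => ?_
      have : Eg χ g (Dq h) e (e x) = 0 := by
        unfold Eg
        have : ∀ w : Cm 0, Dq h e (e x) w = 0 := by
          intro w
          simp [Dq, quad]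
        simp [this]
      rw [this, zero_mul, mul_zero]
    rw [h1]
    have h3 : 0 ≤ IT 2 g h ρ := INT.intX_nonneg fun e x hx =>
      mul_nonneg (hρp _).le (mul_nonneg (sq_nonneg _) (hgh.det_re_pos hx).le)
    have : 0 ≤ ε * IT 2 g h ρ := by positivity
    linarith
  have : NeZero n := ⟨hn.ne'⟩
  intro χ hχ h hh hneg ε hε
  obtain ⟨C0, hC0, hxi⟩ := exists_xi_bound hh
  obtain ⟨c1, C1, hc1, hC1, hmom⟩ := hM χ hχ
  -- the choice of `δ`
  set δ : ℝ := min 1 (ε / (2 * (C0 * C1 + 1))) with hδdef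
  have hA : 0 < 2 * (C0 * C1 + 1) := by positivity
  have hδ : 0 < δ := lt_min one_pos (div_pos hε hA)
  have hδ1 : δ ≤ 1 := min_le_left _ _
  have hδ2 : C0 * C1 * δ ^ 2 ≤ ε / 2 := by
    have h3 : δ ^ 2 ≤ δ := by nlinarith
    have h4 : δ ≤ ε / (2 * (C0 * C1 + 1)) := min_le_right _ _
    have h5 : (C0 * C1 + 1) * δ ≤ ε / 2 := by
      rw [le_div_iff₀ hA] at h4
      linarith
    have h6 : 0 ≤ C0 * C1 := by positivity
    nlinarith
  obtain ⟨C3, hC3, hq⟩ := quot_leW (X := X) hχ hh hneg (ε := ε * δ / 2) (by positivity)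
  refine ⟨(1 / δ) * C3, by positivity, fun g hg hric ρ hρ hρp => ?_⟩
  have hgh := hg.toIsHermitian
  have hF : CTFun fun e z w => (quad (h e z) (xiV (h e) z w)).re := (xiq_smTFun hh).ct
  have hD : CTFun (Dq h) := (Dq_smTFun hh).ct
  have h1c : CTFun (fun (_ : Chart n X) (_ _ : Cm n) => (1 : ℝ)) := CTFun.const 1
  have dD : IsDensity fun e z => ρ (e.symm z) * (Eg χ g (Dq h) e z * dt g e z) :=
    dens_smul (Eg_isDensity hχ hgh hD) hρ
  have dQ := dens_smul (isDensity_quot hχ hgh hh hF) hρ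
  have dT : IsDensity fun e z => ρ (e.symm z) * (Tr g h e z ^ 2 * dt g e z) :=
    dens_smul (isDensity_trace hgh hh (F := fun t => t ^ 2) (continuous_pow 2)) hρ
  -- pointwise estimate
  have hpt : ∀ e x, At e x → ρ (e.symm (e x)) * (Eg χ g (Dq h) e (e x) * dt g e (e x)) ≤
      (1 / δ) * (ρ (e.symm (e x)) *
        (Eg χ g (fun e z w => (quad (h e z) (xiV (h e) z w)).re) e (e x) /
        Tr g h e (e x) * dt g e (e x))) +
        (ε / 2) * (ρ (e.symm (e x)) * (Tr g h e (e x) ^ 2 * dt g e (e x))) := by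
    intro e x hx
    have hT := tr_pos hgh hh hx
    have hd : 0 < dt g e (e x) := hgh.det_re_pos hx
    have h3 := Eg_le hχ hgh hD hF h1c hx (a := 1 / (δ * Tr g h e (e x)))
      (b := C0 * δ ^ 2 * Tr g h e (e x) ^ 2) fun w =>
        D_split (quad_nonneg (hh.posDef e x hx).posSemidef _) (nq_nonneg hh hx w) hT hC0 hδ
          (hxi e x w hx)
    have h4 := (hmom h hh g hgh e x hx).2
    have h5 : C0 * δ ^ 2 * Tr g h e (e x) ^ 2 * Eg χ g (fun _ _ _ => 1) e (e x) ≤
        (ε / 2) * Tr g h e (e x) ^ 2 := by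
      have h6 : C0 * δ ^ 2 * Tr g h e (e x) ^ 2 * Eg χ g (fun _ _ _ => 1) e (e x) ≤
          C0 * δ ^ 2 * Tr g h e (e x) ^ 2 * C1 :=
        mul_le_mul_of_nonneg_left h4 (by positivity)
      have h7 := mul_le_mul_of_nonneg_right hδ2 (sq_nonneg (Tr g h e (e x)))
      nlinarith
    have h6 := mul_le_mul_of_nonneg_right (h3.trans (add_le_add_right h5 _)) hd.le
    have h8 := mul_le_mul_of_nonneg_left h6 (hρp (e.symm (e x))).le
    refine h8.trans (le_of_eq ?_)
    field_simp
  have h3 : intX (fun e z => ρ (e.symm z) * (Eg χ g (Dq h) e z * dt g e z)) ≤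
      intX (fun e z => (1 / δ) * (ρ (e.symm z) *
        (Eg χ g (fun e z w => (quad (h e z) (xiV (h e) z w)).re) e z /
        Tr g h e z * dt g e z)) + (ε / 2) * (ρ (e.symm z) * (Tr g h e z ^ 2 * dt g e z))) :=
    INT.intX_mono dD ((dQ.const_mul (1 / δ)).add (dT.const_mul (ε / 2))) hpt
  rw [INT.intX_add (dQ.const_mul (1 / δ)) (dT.const_mul (ε / 2)), INT.intX_const_mul,
    INT.intX_const_mul] at h3
  have h4 := hq g hg hric ρ hρ hρp
  have hI2 : intX (fun e z => ρ (e.symm z) * (Tr g h e z ^ 2 * dt g e z)) = IT 2 g h ρ := rfl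
  rw [hI2] at h3
  have h10 : (1 / δ) * (ε * δ / 2 * IT 2 g h ρ) = ε / 2 * IT 2 g h ρ := by
    field_simp
  have h11 := mul_le_mul_of_nonneg_left h4 (by positivity : 0 ≤ 1 / δ)
  rw [mul_add, h10] at h11
  have h12 : 0 ≤ IT 0 g h ρ := INT.intX_nonneg fun e x hx =>
    mul_nonneg (hρp _).le (mul_nonneg (by simp) (hgh.det_re_pos hx).le)
  have h13 : (1 / δ) * (C3 * (IP χ g h ρ + IM g h ρ + IG g h ρ)) ≤
      (1 / δ) * C3 * (IT 0 g h ρ + IP χ g h ρ + IM g h ρ + IG g h ρ) := by
    have : 0 ≤ (1 / δ) * C3 * IT 0 g h ρ := by positivity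
    nlinarith
  linarith

end Vale.Agent.P272.K.AMP.NF.H327
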