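import Vale.Agent.P272.K.AMP.NF.H327.LocT

/-!
# AMP-NF, block N2 (weighted L5), local part
-/

open scoped Manifold ContDiff ComplexOrder Topology
open Complex Set Filter MeasureTheory

set_option linter.all false

noncomputable section

namespace Vale.Agent.P272.K.AMP.NF.H327

open Vale.Agent.P272.K.T4 Vale.Agent.P272.K.T4.L5

variable {n : ℕ}

/-- The local estimate with a weight. -/
def LocalL5W (n : ℕ) : Prop :=
  ∀ (χ : ℝ → ℝ) (_ : Wt χ) (U : Set (Cm n)) (_ : IsOpen U)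
    (h : Cm n → Matrix (Fin n) (Fin n) ℂ) (_ : SmPos U h)
    (_ : ∀ z ∈ U, ∀ ξ : Cm n, (quart (curv h z) ξ).re ≤ 0)
    (ψ : Cm n → ℝ) (_ : ContDiff ℝ ∞ ψ) (_ : HasCompactSupport ψ) (_ : tsupport ψ ⊆ U)
    (_ : ∀ z, 0 ≤ ψ z) (ε : ℝ) (_ : 0 < ε), ∃ C : ℝ, 0 ≤ C ∧
    ∀ (g : Cm n → Matrix (Fin n) (Fin n) ℂ) (_ : SmPos U g)
      (_ : ∀ z ∈ U, ∀ i j k, dz k (fun y => g y i j) z = dz i (fun y => g y k j) z)
      (_ : ∀ z ∈ U, (-cHess (fun y => Real.log (g y).det.re) z + g z).PosSemidef)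
      (ρ : Cm n → ℝ) (_ : ∀ z ∈ U, ContDiffAt ℝ ∞ ρ z) (_ : ∀ z ∈ U, 0 < ρ z),
      ∫ z in U, ψ z * (ρ z * (El χ g (Xl h) z / Tl g h z * (g z).det.re)) ≤
        ∫ z in tsupport ψ, ρ z * ((ε * Tl g h z ^ 2 +
          C * (El χ g (fun z w => Pl g h z w + Rl h z w) z + Ml g h z +
            Gl g ρ z * Tl g h z / ρ z ^ 2)) * (g z).det.re)

/-- smoothness of the product of a cutoff and a function smooth on `U` -/
lemma cut_mul {U : Set (Cm n)} {ψ ρ : Cm n → ℝ} (hψ : Cut U ψ)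
    (hρ : ∀ z ∈ U, ContDiffAt ℝ ∞ ρ z) (hρp : ∀ z ∈ U, 0 < ρ z) :
    Cut U (fun y => ψ y * ρ y) where
  smooth := by
    refine contDiff_iff_contDiffAt.2 fun z => ?_
    by_cases hz : z ∈ tsupport ψ
    · exact hψ.smooth.contDiffAt.mul (hρ z (hψ.supp hz))
    · have : (fun y => ψ y * ρ y) =ᶠ[𝓝 z] fun _ => 0 := by
        filter_upwards [(isClosed_tsupport ψ).isOpen_compl.mem_nhds hz] with y hy
        rw [image_eq_zero_of_notMem_tsupport hy, zero_mul]
      exact contDiffAt_const.congr_of_eventuallyEq this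
  compact := hψ.compact.mul_right
  supp := (tsupport_mul_subset_left).trans hψ.supp
  nonneg := fun z => by
    by_cases hz : z ∈ tsupport ψ
    · exact mul_nonneg (hψ.nonneg z) (hρp z (hψ.supp hz)).le
    · rw [image_eq_zero_of_notMem_tsupport hz, zero_mul]

lemma ddl_smooth {U : Set (Cm n)} {ρ : Cm n → ℝ} {z : Cm n} (hρ : ContDiffAt ℝ ∞ ρ z)
    (i j : Fin n) : ContDiffAt ℝ ∞ (fun y => ddl ρ y i j) z := by
  have h1 : ContDiffAt ℝ ∞ (fun y => ((ρ y : ℝ) : ℂ)) z :=
    Complex.ofRealCLM.contDiff.contDiffAt.comp z hρ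
  have h2 := INT.smooth_dz (i := i) h1
  have h3 := INT.smooth_dzb (i := j) h1
  have e : (fun y => ddl ρ y i j) = fun y => dz i (fun y => ((ρ y : ℝ) : ℂ)) y *
      dzb j (fun y => ((ρ y : ℝ) : ℂ)) y := rfl
  rw [e]
  exact h2.mul h3

lemma Gl_contAt {U : Set (Cm n)} {g : Cm n → Matrix (Fin n) (Fin n) ℂ} {ρ : Cm n → ℝ} {z : Cm n}
    (hg : LocMet U g) (hz : z ∈ U) (hρ : ContDiffAt ℝ ∞ ρ z) : ContinuousAt (Gl g ρ) z := by
  have h1 := contDiffAt_trace_mul (fun i j => contDiffAt_inv (hg.smooth z hz) (hg.det_ne hz) i j)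
    (ddl_smooth (U := U) hρ)
  exact (contDiffAt_re h1).continuousAt

theorem localL5W (n : ℕ) : LocalL5W n := by
  intro χ hχ U hU h hh hneg ψ hψs hψc hψU hψ0 ε hε
  rcases Nat.eq_zero_or_pos n with hn0 | hn
  · subst hn0
    refine ⟨0, le_rfl, fun g hg hgc hric ρ hρ hρp => ?_⟩
    have hT : ∀ z, Tl g h z = 0 := fun z => by
      unfold Tl; simp [Matrix.trace]
    simp only [hT, div_zero, zero_mul, mul_zero, integral_zero]
    simp
  have hψ : Cut U ψ := ⟨hψs, hψc, hψU, hψ0⟩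
  obtain ⟨CA, DA, hCA, hDA, hA⟩ := L5.aBound n hn χ hχ U hU h hh hneg ψ hψ
  obtain ⟨CB, hCB, hB⟩ := L5.bBound n hn χ hχ U hU h hh ψ hψ
  obtain ⟨CT, hCT, hT⟩ := tBoundW hn hχ hU hh hψ (δ := ε / (CA + 1)) (by positivity)
  obtain ⟨Aψ, hAψ1, hCon⟩ := exists_consts hU hh hψ
  refine ⟨CA * (CB + CT + DA * Aψ), by positivity, fun g hg hgc hric ρ hρ hρp => ?_⟩
  have hgl : LocMet U g := ⟨hU, hg.smooth, hg.pos, hgc⟩
  have hψρ := cut_mul hψ hρ hρp
  obtain ⟨hZi, hZ0⟩ := L5.ident n hn χ hχ U g h hgl hh (fun y => ψ y * ρ y) hψρ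
  set K := tsupport ψ with hK
  have hKc : IsCompact K := hψc
  have hKm : MeasurableSet K := hKc.measurableSet
  set Z : Cm n → ℂ := fun z => (uu (fun y => ψ y * ρ y) g h z * (BI χ g h z - AI χ g h z) +
    TI χ (fun y => ψ y * ρ y) g h z) * (g z).det ^ 2 with hZ
  -- `Z` vanishes off `K`
  have hu0 : ∀ z, z ∉ K → uu (fun y => ψ y * ρ y) g h z = 0 := fun z hz => by
    have : ψ z = 0 := image_eq_zero_of_notMem_tsupport hz
    unfold uu; simp [this]
  have hZK : ∀ z, z ∉ K → Z z = 0 := by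
    intro z hz
    have hev : uu (fun y => ψ y * ρ y) g h =ᶠ[𝓝 z] fun _ => 0 := by
      filter_upwards [(isClosed_tsupport ψ).isOpen_compl.mem_nhds hz] with y hy using hu0 y hy
    have e2 : TI χ (fun y => ψ y * ρ y) g h z = 0 := by
      unfold TI thr
      simp only [hu0 z hz, dzb_zero_of hev, mul_zero, zero_mul, Finset.sum_const_zero, add_zero,
        sub_zero, integral_zero]
    simp only [hZ, hu0 z hz, e2]
    ring
  have hZre : ∫ z in K, (Z z).re = 0 := by
    have e1 : ∫ z in K, (Z z).re = ∫ z, (Z z).re :=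
      setIntegral_eq_integral_of_forall_compl_eq_zero fun z hz => by rw [hZK z hz]; simp
    rw [e1]
    have e2 : ∫ z, (Z z).re = (∫ z, Z z).re := integral_re hZi
    rw [e2, hZ0]; simp
  have hZrei : IntegrableOn (fun z => (Z z).re) K := hZi.re.integrableOn
  -- continuity of the right-hand side
  set R : Cm n → ℝ := fun z => ρ z * ((ε * Tl g h z ^ 2 + CA * (CB + CT + DA * Aψ) *
    (El χ g (fun z w => Pl g h z w + Rl h z w) z + Ml g h z +
      Gl g ρ z * Tl g h z / ρ z ^ 2)) * (g z).det.re) with hR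
  have hRc : ContinuousOn R K := by
    intro z hz
    have hzU := hψU hz
    have c0 : ContinuousAt ρ z := (hρ z hzU).continuousAt
    have c1 : ContinuousAt (Tl g h) z := (tl_smooth hgl hh hzU).continuousAt
    have c2 : ContinuousAt (El χ g (fun z w => Pl g h z w + Rl h z w)) z :=
      El_contAt hχ hgl (fun z hz w => (Pl_contAt hgl hh hz w).add (Rl_contAt hh hz w)) hzU
    have c3 : ContinuousAt (Ml g h) z := Ml_contAt hgl hh hzU
    have c4 : ContinuousAt (fun y => (g y).det.re) z :=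
      det_contAt fun i j => (hg.smooth z hzU i j).continuousAt
    have c5 : ContinuousAt (Gl g ρ) z := Gl_contAt hgl hzU (hρ z hzU)
    have c6 : ContinuousAt (fun z => Gl g ρ z * Tl g h z / ρ z ^ 2) z :=
      (c5.mul c1).div (c0.pow 2) (pow_ne_zero 2 (hρp z hzU).ne')
    exact (c0.mul ((((c1.pow 2).const_mul ε).add (((c2.add c3).add c6).const_mul
      (CA * (CB + CT + DA * Aψ)))).mul c4)).continuousWithinAt
  have hRi : IntegrableOn R K := hRc.integrableOn_compact hKc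
  -- reduction to `K`
  set f : Cm n → ℝ := fun z => ψ z * (ρ z * (El χ g (Xl h) z / Tl g h z * (g z).det.re)) with hf
  have hfK : ∫ z in U, f z = ∫ z in K, f z := by
    refine (setIntegral_eq_of_subset_of_forall_diff_eq_zero hU.measurableSet hψU ?_)
    intro z hz
    rw [hf]
    simp only []
    rw [image_eq_zero_of_notMem_tsupport hz.2, zero_mul]
  have hf0 : ∀ z ∈ K, 0 ≤ f z := by
    intro z hz
    have hzU := hψU hz
    have h1 : 0 ≤ El χ g (Xl h) z := El_nonneg hχ hgl hzU fun w =>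
      quad_nonneg (hh.pos z hzU).posSemidef _
    have h2 : 0 < Tl g h z := trace_pos hn (hg.pos z hzU) (hh.pos z hzU)
    have h3 := (det_re_pos' hgl hzU).1
    have h4 := hψ0 z
    have h5 := hρp z hzU
    simp only [hf]
    positivity
  have hle : ∀ z ∈ K, f z ≤ R z - CA * (Z z).re := by
    intro z hz
    have hzU := hψU hz
    have hr := hρp z hzU
    have hτ : 0 < Tl g h z := trace_pos hn (hg.pos z hzU) (hh.pos z hzU)
    obtain ⟨hd, hdet⟩ := det_re_pos' hgl hzU
    have hPn : 0 ≤ El χ g (Pl g h) z := El_nonneg hχ hgl hzU fun w =>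
      quad_nonneg (hh.pos z hzU).posSemidef _
    have hRn : 0 ≤ El χ g (Rl h) z := El_nonneg hχ hgl hzU fun w => by
      have := hneg z hzU w
      unfold Rl; linarith
    have hMn : 0 ≤ Ml g h z := Ml_nonneg' hgl hh hzU (hric z hzU)
    have hGn : 0 ≤ Gl g ρ z * Tl g h z / ρ z ^ 2 := by
      have := Gl_nonneg (hg.pos z hzU) ((hρ z hzU).differentiableAt (by simp))
      positivity
    have hEl : El χ g (fun z w => Pl g h z w + Rl h z w) z =
        El χ g (Pl g h) z + El χ g (Rl h) z :=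
      El_add hχ hgl hzU (continuous_Pl g h z) (continuous_Rl h z)
    have hv : 0 ≤ ψ z / Tl g h z := div_nonneg (hψ0 z) hτ.le
    have hvτ : ψ z / Tl g h z * Tl g h z ≤ Aψ := by
      rw [div_mul_cancel₀ _ hτ.ne']
      exact (le_abs_self _).trans (hCon z hz).ps
    have hδ : CA * (ε / (CA + 1)) ≤ ε := by
      rw [mul_div_assoc', div_le_iff₀ (by positivity)]
      nlinarith
    have hrc : ((ρ z : ℝ) : ℂ) ≠ 0 := by exact_mod_cast hr.ne'
    have hTz : ‖TI χ (fun y => ψ y * ρ y) g h z / ((ρ z : ℝ) : ℂ)‖ * (g z).det.re ≤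
        ε / (CA + 1) * Tl g h z ^ 2 +
          CT * (El χ g (Pl g h) z + Gl g ρ z * Tl g h z / ρ z ^ 2) := by
      have := hT g hgl ρ hρ hρp z hz
      rw [norm_div, Complex.norm_real, Real.norm_of_nonneg hr.le, div_mul_eq_mul_div,
        div_le_iff₀ hr]
      linarith
    have key := local_pt (n := n) (ψ := ψ) (a := 0) (b := 0) (t := 0) (v := ψ z / Tl g h z)
      (τ := Tl g h z) (d := (g z).det.re) (X := El χ g (Xl h) z)
      (P := El χ g (Pl g h) z + Gl g ρ z * Tl g h z / ρ z ^ 2)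
      (R := El χ g (Rl h) z) (M := Ml g h z) (BIz := BI χ g h z)
      (TIz := TI χ (fun y => ψ y * ρ y) g h z / ((ρ z : ℝ) : ℂ))
      (AIz := AI χ g h z) (uz := uu ψ g h z) hCA hDA hCB hCT hd hτ hv rfl hvτ
      (add_nonneg hPn hGn) hRn hMn hδ
      (hA g hg z hz) (hB g hgl hric z hz) hTz
    have key2 := mul_le_mul_of_nonneg_left key hr.le
    simp only [hf, hR, hZ]
    rw [hEl]
    have e1 : ψ z * (ρ z * (El χ g (Xl h) z / Tl g h z * (g z).det.re)) =
        ρ z * (ψ z / Tl g h z * El χ g (Xl h) z * (g z).det.re) := by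
      field_simp
    have e2 : ((uu (fun y => ψ y * ρ y) g h z * (BI χ g h z - AI χ g h z) +
        TI χ (fun y => ψ y * ρ y) g h z) * (g z).det ^ 2).re =
        ρ z * ((uu ψ g h z * (BI χ g h z - AI χ g h z) +
          TI χ (fun y => ψ y * ρ y) g h z / ((ρ z : ℝ) : ℂ)) * (((g z).det.re : ℝ) : ℂ) ^ 2).re := by
      rw [← Complex.re_ofReal_mul, uu_mul]
      congr 1
      rw [← hdet]
      field_simp
    rw [e1, e2]
    refine key2.trans (le_of_eq ?_)
    ring
  rw [hfK]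
  have hint : IntegrableOn (fun z => R z - CA * (Z z).re) K :=
    hRi.sub (hZrei.const_mul CA)
  have h1 : ∫ z in K, f z ≤ ∫ z in K, (R z - CA * (Z z).re) := by
    refine integral_mono_of_nonneg ?_ hint ?_
    · exact (ae_restrict_iff' hKm).2 (Eventually.of_forall fun z hz => hf0 z hz)
    · exact (ae_restrict_iff' hKm).2 (Eventually.of_forall fun z hz => hle z hz)
  have h2 : ∫ z in K, (R z - CA * (Z z).re) = ∫ z in K, R z := by
    have e1 : ∫ z in K, (R z - CA * (Z z).re) =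
        (∫ z in K, R z) - ∫ z in K, CA * (Z z).re := integral_sub hRi (hZrei.const_mul CA)
    rw [e1, integral_const_mul, hZre, mul_zero, sub_zero]
  rw [h2] at h1
  exact h1

end Vale.Agent.P272.K.AMP.NF.H327
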