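import Vale.Agent.P272.K.T4.L5Done

/-!
# AMP-NF, block N2 (weighted L5), local part: the error terms with a weight `ρ`
-/

open scoped Manifold ContDiff ComplexOrder Topology
open Complex Set Filter MeasureTheory

set_option linter.all false

noncomputable section

namespace Vale.Agent.P272.K.AMP.NF.H327

open Vale.Agent.P272.K.T4 Vale.Agent.P272.K.T4.L5

variable {n : ℕ} {χ : ℝ → ℝ} {U : Set (Cm n)} {g h : Cm n → Matrix (Fin n) (Fin n) ℂ}
  {ψ ρ : Cm n → ℝ} {z : Cm n}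

/-- `∂ρ ⊗ ∂̄ρ` -/
def ddl (ρ : Cm n → ℝ) (z : Cm n) : Matrix (Fin n) (Fin n) ℂ :=
  Matrix.of fun i j => dz i (fun y => ((ρ y : ℝ) : ℂ)) z * dzb j (fun y => ((ρ y : ℝ) : ℂ)) z

/-- `|∂ρ|²_g` in one chart -/
def Gl (g : Cm n → Matrix (Fin n) (Fin n) ℂ) (ρ : Cm n → ℝ) (z : Cm n) : ℝ :=
  ((g z)⁻¹ * ddl ρ z).trace.re

/-- `w̄ · ∂̄ρ` -/
def wr (ρ : Cm n → ℝ) (z w : Cm n) : ℂ := ∑ k, cj (w k) * dzb k (fun y => ((ρ y : ℝ) : ℂ)) z

lemma ddl_psd (hρ : DifferentiableAt ℝ ρ z) : (ddl ρ z).PosSemidef := by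
  have e : ddl ρ z = Matrix.vecMulVec (fun i => dz i (fun y => ((ρ y : ℝ) : ℂ)) z)
      (star fun i => dz i (fun y => ((ρ y : ℝ) : ℂ)) z) := by
    ext i j
    rw [ddl, Matrix.of_apply, Matrix.vecMulVec_apply, C2.dzb_real j hρ]
    rfl
  rw [e]
  exact Matrix.posSemidef_vecMulVec_self_star _

lemma quad_ddl (hρ : DifferentiableAt ℝ ρ z) (w : Cm n) :
    (quad (ddl ρ z) w).re = ‖wr ρ z w‖ ^ 2 := by
  have e : quad (ddl ρ z) w = cj (wr ρ z w) * wr ρ z w := by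
    unfold quad wr
    simp only [cj, map_sum, map_mul, Complex.conj_conj]
    rw [Finset.sum_mul_sum]
    refine Finset.sum_congr rfl fun i _ => Finset.sum_congr rfl fun j _ => ?_
    rw [ddl, Matrix.of_apply]
    have : (starRingEnd ℂ) (dzb i (fun y => ((ρ y : ℝ) : ℂ)) z) =
        dz i (fun y => ((ρ y : ℝ) : ℂ)) z := by
      rw [C2.dzb_real i hρ]; simp
    rw [this]
    ring
  rw [e, cj, mul_comm, Complex.mul_conj, Complex.normSq_eq_norm_sq]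
  exact Complex.ofReal_re _

lemma Gl_nonneg (hG : (g z).PosDef) (hρ : DifferentiableAt ℝ ρ z) : 0 ≤ Gl g ρ z :=
  (trace_re_eq hG (ddl_psd hρ)).2

lemma wr_sq_le (hG : (g z).PosDef) (hρ : DifferentiableAt ℝ ρ z) (w : Cm n) :
    ‖wr ρ z w‖ ^ 2 ≤ Gl g ρ z * (quad (g z) w).re := by
  rw [← quad_ddl hρ]
  exact quad_le_tr hG (ddl_psd hρ) w

lemma uu_mul (ψ ρ : Cm n → ℝ) (g h : Cm n → Matrix (Fin n) (Fin n) ℂ) :
    uu (fun y => ψ y * ρ y) g h = fun z => ((ρ z : ℝ) : ℂ) * uu ψ g h z := by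
  funext z
  rw [uu, uu, ← Complex.ofReal_mul]
  congr 1
  ring

lemma thr_mul (hn : 0 < n) (hg : LocMet U g) (hh : SmPos U h) (hψ : ContDiff ℝ ∞ ψ)
    (hz : z ∈ U) (hρ : DifferentiableAt ℝ ρ z) (w : Cm n) :
    thr (fun y => ψ y * ρ y) g h z w = ((ρ z : ℝ) : ℂ) * thr ψ g h z w +
      uu ψ g h z * wr ρ z w * ∑ p, beta (curv h z) w p * P1.dGam g h z w p := by
  have hu : DifferentiableAt ℝ (uu ψ g h) z :=
    (uu_smooth hn hg hh hψ hz).differentiableAt (by simp)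
  have hρ' : DifferentiableAt ℝ (fun y => ((ρ y : ℝ) : ℂ)) z := C2.differentiableAt_ofReal hρ
  have e1 : ∀ k, dzb k (uu (fun y => ψ y * ρ y) g h) z =
      dzb k (fun y => ((ρ y : ℝ) : ℂ)) z * uu ψ g h z +
        ((ρ z : ℝ) : ℂ) * dzb k (uu ψ g h) z := by
    intro k
    rw [uu_mul, C2.dzb_mul k hρ' hu]
  have e2 : uu (fun y => ψ y * ρ y) g h z = ((ρ z : ℝ) : ℂ) * uu ψ g h z := by rw [uu_mul]
  have e3 : ∑ k, cj (w k) * dzb k (uu (fun y => ψ y * ρ y) g h) z =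
      wr ρ z w * uu ψ g h z + ((ρ z : ℝ) : ℂ) * ∑ k, cj (w k) * dzb k (uu ψ g h) z := by
    simp only [e1, wr, Finset.sum_mul, Finset.mul_sum]
    rw [← Finset.sum_add_distrib]
    exact Finset.sum_congr rfl fun k _ => by ring
  unfold thr
  rw [e2, e3]
  generalize (∑ k, cj (w k) * dzb k (uu ψ g h) z) = S1
  rw [Finset.mul_sum, Finset.mul_sum, ← Finset.sum_add_distrib]
  refine Finset.sum_congr rfl fun p _ => ?_
  ring

/-- the additional term -/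
def XI (χ : ℝ → ℝ) (ρ : Cm n → ℝ) (g h : Cm n → Matrix (Fin n) (Fin n) ℂ) (z : Cm n) : ℂ :=
  ∫ w : Cm n, (wr ρ z w * ∑ p, beta (curv h z) w p * P1.dGam g h z w p) *
    ((χ (quad (g z) w).re : ℝ) : ℂ)

lemma cont_wr (ρ : Cm n → ℝ) (z : Cm n) : Continuous fun w : Cm n => wr ρ z w :=
  continuous_finset_sum _ fun k _ => (contDiff_cj_coord k).continuous.mul continuous_const

lemma cont_bS (g h : Cm n → Matrix (Fin n) (Fin n) ℂ) (z : Cm n) :
    Continuous fun w : Cm n => ∑ p, beta (curv h z) w p * P1.dGam g h z w p :=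
  continuous_finset_sum _ fun p _ => (contDiff_beta _ p).continuous.mul
    ((continuous_apply p).comp (continuous_dGam g h z))

lemma TI_mul (hχ : Wt χ) (hn : 0 < n) (hg : LocMet U g) (hh : SmPos U h) (hψ : ContDiff ℝ ∞ ψ)
    (hz : z ∈ U) (hρ : DifferentiableAt ℝ ρ z) :
    TI χ (fun y => ψ y * ρ y) g h z = ((ρ z : ℝ) : ℂ) * TI χ ψ g h z +
      uu ψ g h z * XI χ ρ g h z := by
  have hG := hg.pos z hz
  have i1 : Integrable fun w : Cm n => thr ψ g h z w * ((χ (quad (g z) w).re : ℝ) : ℂ) :=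
    integrable_wq hχ hG (cont_thr z)
  have i2 : Integrable fun w : Cm n =>
      (wr ρ z w * ∑ p, beta (curv h z) w p * P1.dGam g h z w p) *
        ((χ (quad (g z) w).re : ℝ) : ℂ) :=
    integrable_wq hχ hG ((cont_wr ρ z).mul (cont_bS g h z))
  unfold TI XI
  rw [← integral_const_mul, ← integral_const_mul,
    ← integral_add (i1.const_mul _) (i2.const_mul _)]
  refine integral_congr_ae (Eventually.of_forall fun w => ?_)
  simp only [thr_mul hn hg hh hψ hz hρ w]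
  ring

/-- elementary inequality -/
lemma am_real {A τ G r a x s u b N3 : ℝ} (hA : 0 ≤ A) (hτ : 0 < τ) (hr : 0 < r) (ha : a ^ 2 ≤ G)
    (hG : 0 ≤ G) (hx0 : 0 ≤ x) (hx : x ^ 2 ≤ A * τ) (hs0 : 0 ≤ s) (P : ℝ) (hs : s ^ 2 ≤ A * P)
    (hu0 : 0 ≤ u) (hu : u ≤ A / τ) (ha0 : 0 ≤ a) (hN : 0 ≤ N3)
    (hb : b ≤ N3 * (A * x ^ 3) * s) :
    u * (a * b) ≤ r * A * P + (N3 ^ 2 * A ^ 7) * (G * τ / r) := by
  have h1 : u * (a * b) ≤ (A / τ) * (a * (N3 * (A * x ^ 3) * s)) := by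
    have q1 : 0 ≤ a * (N3 * (A * x ^ 3) * s) := by positivity
    have q2 : a * b ≤ a * (N3 * (A * x ^ 3) * s) := mul_le_mul_of_nonneg_left hb ha0
    calc u * (a * b) ≤ u * (a * (N3 * (A * x ^ 3) * s)) := mul_le_mul_of_nonneg_left q2 hu0
      _ ≤ _ := mul_le_mul_of_nonneg_right hu q1
  have h2 : (A / τ) * (a * (N3 * (A * x ^ 3) * s)) ≤
      r * s ^ 2 + (A / τ * (N3 * (A * x ^ 3))) ^ 2 * a ^ 2 / r := by
    have e : r * s ^ 2 + (A / τ * (N3 * (A * x ^ 3))) ^ 2 * a ^ 2 / r -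
        (A / τ) * (a * (N3 * (A * x ^ 3) * s)) =
        ((r * s - (A / τ * (N3 * (A * x ^ 3))) * a / 2) ^ 2 +
          3 / 4 * ((A / τ * (N3 * (A * x ^ 3))) * a) ^ 2) / r := by
      field_simp
      ring
    have : 0 ≤ ((r * s - (A / τ * (N3 * (A * x ^ 3))) * a / 2) ^ 2 +
          3 / 4 * ((A / τ * (N3 * (A * x ^ 3))) * a) ^ 2) / r := by positivity
    linarith
  have h3 : (A / τ * (N3 * (A * x ^ 3))) ^ 2 * a ^ 2 / r ≤ (N3 ^ 2 * A ^ 7) * (G * τ / r) := by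
    have x6 : x ^ 6 ≤ (A * τ) ^ 3 := by
      calc x ^ 6 = (x ^ 2) ^ 3 := by ring
        _ ≤ (A * τ) ^ 3 := by gcongr
    calc (A / τ * (N3 * (A * x ^ 3))) ^ 2 * a ^ 2 / r =
        (A ^ 4 * N3 ^ 2 / τ ^ 2) * x ^ 6 * a ^ 2 / r := by field_simp
      _ ≤ (A ^ 4 * N3 ^ 2 / τ ^ 2) * (A * τ) ^ 3 * G / r := by gcongr
      _ = _ := by field_simp
  have h4 : r * s ^ 2 ≤ r * A * P := by
    calc r * s ^ 2 ≤ r * (A * P) := mul_le_mul_of_nonneg_left hs hr.le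
      _ = _ := by ring
  linarith

/-- bound for the additional term -/
lemma XI_bound (hχ : Wt χ) (hn : 0 < n) (hg : LocMet U g) (hh : SmPos U h)
    (hz : z ∈ U) (hρ : DifferentiableAt ℝ ρ z) (hr : 0 < ρ z) {A : ℝ} (hA : 0 ≤ A)
    (hC : Consts h ψ A z) :
    ‖uu ψ g h z * XI χ ρ g h z‖ * (g z).det.re ≤
      ρ z * A * El χ g (Pl g h) z + ((n * n ^ 3 : ℝ) ^ 2 * A ^ 7) *
        (Gl g ρ z * Tl g h z / ρ z) *
          ∫ w : Cm n, χ (quad (1 : Matrix (Fin n) (Fin n) ℂ) w).re := by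
  have hG := hg.pos z hz
  have hH := hh.pos z hz
  have hτ : 0 < Tl g h z := trace_pos hn hG hH
  have hdet : 0 < (g z).det.re := (det_re_pos' hg hz).1
  have hu := norm_uu_le hn hg hh hz hC
  have i1 : Integrable fun w : Cm n => χ (quad (g z) w).re := by
    have := fib_intR hχ hG (F := fun _ => 1) continuous_const
    simpa using this
  have i3 : Integrable fun w : Cm n => Pl g h z w * χ (quad (g z) w).re :=
    fib_intR hχ hG (continuous_Pl g h z)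
  have e0 : uu ψ g h z * XI χ ρ g h z = ∫ w : Cm n, uu ψ g h z *
      ((wr ρ z w * ∑ p, beta (curv h z) w p * P1.dGam g h z w p) *
        ((χ (quad (g z) w).re : ℝ) : ℂ)) := by
    rw [XI, integral_const_mul]
  have hpt : ∀ w : Cm n, ‖uu ψ g h z *
      ((wr ρ z w * ∑ p, beta (curv h z) w p * P1.dGam g h z w p) *
        ((χ (quad (g z) w).re : ℝ) : ℂ))‖ ≤
      (ρ z * A) * (Pl g h z w * χ (quad (g z) w).re) +
        (((n * n ^ 3 : ℝ) ^ 2 * A ^ 7) * (Gl g ρ z * Tl g h z / ρ z)) *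
          χ (quad (g z) w).re + 0 * χ (quad (g z) w).re := by
    intro w
    rw [norm_mul, norm_mul, norm_mul, Complex.norm_real, Real.norm_of_nonneg (hχ.nonneg _)]
    rcases le_or_gt 1 (quad (g z) w).re with h1 | h1
    · rw [hχ.zero _ h1]; simp
    have hχ0 := hχ.nonneg (quad (g z) w).re
    have hx2 : ‖w‖ ^ 2 ≤ A * Tl g h z := sq_norm_le_of hG hH.posSemidef hA (hC.low w) h1.le
    have hs2 : ‖P1.dGam g h z w‖ ^ 2 ≤ A * Pl g h z w := hC.low _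
    have hG0 := Gl_nonneg hG hρ
    have ha : ‖wr ρ z w‖ ^ 2 ≤ Gl g ρ z := by
      refine (wr_sq_le hG hρ w).trans ?_
      calc Gl g ρ z * (quad (g z) w).re ≤ Gl g ρ z * 1 :=
            mul_le_mul_of_nonneg_left h1.le hG0
        _ = _ := mul_one _
    have hb : ‖∑ p, beta (curv h z) w p * P1.dGam g h z w p‖ ≤
        (n * n ^ 3 : ℝ) * (A * ‖w‖ ^ 3) * ‖P1.dGam g h z w‖ := by
      have := norm_sum1_le (n := n) (M := (n ^ 3 * (A * ‖w‖ ^ 3)) * ‖P1.dGam g h z w‖)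
        (f := fun p => beta (curv h z) w p * P1.dGam g h z w p) fun p => by
          rw [norm_mul]
          exact mul_le_mul (norm_beta_le hC.cv p) (norm_le_pi_norm _ p) (norm_nonneg _)
            (by positivity)
      refine this.trans (le_of_eq ?_)
      ring
    have key := am_real hA hτ hr ha hG0 (norm_nonneg w) hx2 (norm_nonneg (P1.dGam g h z w))
      (Pl g h z w) hs2 (norm_nonneg (uu ψ g h z)) hu (norm_nonneg (wr ρ z w)) (by positivity) hb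
    calc ‖uu ψ g h z‖ * (‖wr ρ z w‖ * ‖∑ p, beta (curv h z) w p * P1.dGam g h z w p‖ *
          χ (quad (g z) w).re)
        = (‖uu ψ g h z‖ * (‖wr ρ z w‖ * ‖∑ p, beta (curv h z) w p * P1.dGam g h z w p‖)) *
          χ (quad (g z) w).re := by ring
      _ ≤ (ρ z * A * Pl g h z w + ((n * n ^ 3 : ℝ) ^ 2 * A ^ 7) *
          (Gl g ρ z * Tl g h z / ρ z)) * χ (quad (g z) w).re :=
          mul_le_mul_of_nonneg_right key hχ0
      _ = _ := by ring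
  have hI := norm_int_comb i3 i1 i1 hpt
  rw [← e0] at hI
  have hmass : (∫ w : Cm n, χ (quad (g z) w).re) * (g z).det.re =
      ∫ w : Cm n, χ (quad (1 : Matrix (Fin n) (Fin n) ℂ) w).re := by
    have := mass_eq (fun s => χ s) hG
    rw [smul_eq_mul, mul_comm] at this
    exact this
  have hEl : El χ g (Pl g h) z =
      (∫ w : Cm n, Pl g h z w * χ (quad (g z) w).re) * (g z).det.re := by
    rw [El, integral_mul_const]
  rw [hEl, ← hmass]
  calc _ ≤ _ := mul_le_mul_of_nonneg_right hI hdet.le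
    _ = _ := by ring

/-- the error terms with weight -/
theorem tBoundW (hn : 0 < n) (hχ : Wt χ) (hU : IsOpen U) (hh : SmPos U h) (hψ : Cut U ψ) {δ : ℝ}
    (hδ : 0 < δ) : ∃ C : ℝ, 0 ≤ C ∧
    ∀ (g : Cm n → Matrix (Fin n) (Fin n) ℂ) (_ : LocMet U g) (ρ : Cm n → ℝ)
      (_ : ∀ z ∈ U, ContDiffAt ℝ ∞ ρ z) (_ : ∀ z ∈ U, 0 < ρ z),
      ∀ z ∈ tsupport ψ, ‖TI χ (fun y => ψ y * ρ y) g h z‖ * (g z).det.re ≤
        ρ z * (δ * Tl g h z ^ 2 +
          C * (El χ g (Pl g h) z + Gl g ρ z * Tl g h z / ρ z ^ 2)) := by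
  obtain ⟨CT, hCT, hT⟩ := L5.tBound (L5.momTrace n) hn χ hχ U hU h hh ψ hψ δ hδ
  obtain ⟨A, hA1, hCon⟩ := exists_consts hU hh hψ
  have hA : 0 ≤ A := by linarith
  set m0 : ℝ := ∫ w : Cm n, χ (quad (1 : Matrix (Fin n) (Fin n) ℂ) w).re with hm0
  have hm00 : 0 ≤ m0 := integral_nonneg fun w => hχ.nonneg _
  set K : ℝ := ((n * n ^ 3 : ℝ) ^ 2 * A ^ 7) * m0 with hK
  have hK0 : 0 ≤ K := by positivity
  refine ⟨CT + A + K, by positivity, fun g hg ρ hρs hρp z hzψ => ?_⟩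
  have hz : z ∈ U := hψ.supp hzψ
  have hρd : DifferentiableAt ℝ ρ z := (hρs z hz).differentiableAt (by simp)
  have hr := hρp z hz
  have hG := hg.pos z hz
  have hdet : 0 < (g z).det.re := (det_re_pos' hg hz).1
  have hτ : 0 < Tl g h z := trace_pos hn hG (hh.pos z hz)
  have h1 := hT g hg z hzψ
  have h2 := XI_bound (ψ := ψ) hχ hn hg hh hz hρd hr hA (hCon z hzψ)
  rw [← hm0] at h2
  rw [TI_mul hχ hn hg hh hψ.smooth hz hρd]
  have hP0 : 0 ≤ El χ g (Pl g h) z := El_nonneg hχ hg hz fun w =>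
    quad_nonneg (hh.pos z hz).posSemidef _
  have hG0 : 0 ≤ Gl g ρ z * Tl g h z / ρ z ^ 2 := by
    have := Gl_nonneg hG hρd
    positivity
  have h3 : ‖((ρ z : ℝ) : ℂ) * TI χ ψ g h z + uu ψ g h z * XI χ ρ g h z‖ * (g z).det.re ≤
      ρ z * (‖TI χ ψ g h z‖ * (g z).det.re) + ‖uu ψ g h z * XI χ ρ g h z‖ * (g z).det.re := by
    have := norm_add_le (((ρ z : ℝ) : ℂ) * TI χ ψ g h z) (uu ψ g h z * XI χ ρ g h z)
    have e : ‖((ρ z : ℝ) : ℂ) * TI χ ψ g h z‖ = ρ z * ‖TI χ ψ g h z‖ := by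
      rw [norm_mul, Complex.norm_real, Real.norm_of_nonneg hr.le]
    rw [e] at this
    calc _ ≤ (ρ z * ‖TI χ ψ g h z‖ + ‖uu ψ g h z * XI χ ρ g h z‖) * (g z).det.re :=
          mul_le_mul_of_nonneg_right this hdet.le
      _ = _ := by ring
  have h4 : ρ z * (‖TI χ ψ g h z‖ * (g z).det.re) ≤
      ρ z * (δ * Tl g h z ^ 2 + CT * El χ g (Pl g h) z) :=
    mul_le_mul_of_nonneg_left h1 hr.le
  have e5 : (((n * n ^ 3 : ℝ) ^ 2 * A ^ 7) * (Gl g ρ z * Tl g h z / ρ z)) * m0 =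
      ρ z * (K * (Gl g ρ z * Tl g h z / ρ z ^ 2)) := by
    rw [hK]
    field_simp
  rw [e5] at h2
  have h6 : ρ z * (δ * Tl g h z ^ 2 + CT * El χ g (Pl g h) z) + (ρ z * A * El χ g (Pl g h) z +
      ρ z * (K * (Gl g ρ z * Tl g h z / ρ z ^ 2))) ≤ ρ z * (δ * Tl g h z ^ 2 +
          (CT + A + K) * (El χ g (Pl g h) z + Gl g ρ z * Tl g h z / ρ z ^ 2)) := by
    have e7 : ρ z * (δ * Tl g h z ^ 2 +
          (CT + A + K) * (El χ g (Pl g h) z + Gl g ρ z * Tl g h z / ρ z ^ 2)) =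
        ρ z * (δ * Tl g h z ^ 2 + CT * El χ g (Pl g h) z) + (ρ z * A * El χ g (Pl g h) z +
      ρ z * (K * (Gl g ρ z * Tl g h z / ρ z ^ 2))) +
      (ρ z * ((CT + A) * (Gl g ρ z * Tl g h z / ρ z ^ 2)) + ρ z * (K * El χ g (Pl g h) z)) := by
      ring
    rw [e7]
    have : 0 ≤ ρ z * ((CT + A) * (Gl g ρ z * Tl g h z / ρ z ^ 2)) +
        ρ z * (K * El χ g (Pl g h) z) := by positivity
    linarith
  linarith

end Vale.Agent.P272.K.AMP.NF.H327
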